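import Vale.Agent.P366.Kerr.DefsE

/-! Hypersurfaces of Kerr-Schild spacetimes whose initial data satisfy the dominant energy
condition: definitions, in every space dimension `n`. -/

open MeasureTheory Metric Filter Topology Set
open scoped ContDiff ENNReal

noncomputable section
namespace Vale.Agent.P366.Kerr

variable {n : ℕ}

/-- The constant vector `ξ` is timelike and future directed for the Minkowski metric. -/
def IsFut (ξ : Fin (n + 1) → ℝ) : Prop := 0 < ξ 0 ∧ ∑ i : Fin n, ξ i.succ ^ 2 < ξ 0 ^ 2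

/-- The initial data `D` of the hypersurface `t = f(y)` satisfy the dominant energy condition, and
`l` is geodesic at its points with `V ≠ 0`: `l^b ∂_b l_a = κ l_a`. At each interior point either
the constant vector `ξ` is timelike for the Kerr-Schild metric, or the spacetime satisfies the
dominant energy condition at the point and the hypersurface is spacelike or null there for the
Minkowski metric. -/
structure MixDEC (l : Fin (n + 1) → Stmt.E (n + 1) → ℝ) (V : Stmt.E (n + 1) → ℝ)
    (f : Stmt.E n → ℝ) (ξ : Fin (n + 1) → ℝ) (D : Stmt.Exterior n) : Prop where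
  dec : D.DEC
  geo : ∀ y, 0 ≤ D.F y → V (pt (f y) y) ≠ 0 → ∃ κ : ℝ, ∀ a,
    ∑ b, sgn b * l b (pt (f y) y) * Stmt.pd b (l a) (pt (f y) y) = κ * l a (pt (f y) y)
  mix : ∀ y, 0 < D.F y →
    V (pt (f y) y) * (∑ a, l a (pt (f y) y) * ξ a) ^ 2 < ξ 0 ^ 2 - ∑ i : Fin n, ξ i.succ ^ 2 ∨
    (DECatL (ksL l V) l (pt (f y) y) ∧ ∑ i, Stmt.pd i f y ^ 2 ≤ 1)

end Vale.Agent.P366.Kerr
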