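import Vale.Agent.P366.Stmt

/-! The part of an exterior outside an enclosing cut: definition. -/

open MeasureTheory Metric Filter Topology Set
open scoped ContDiff ENNReal

noncomputable section
namespace Vale.Agent.P366.Kerr

variable {n : ℕ}

/-- `D'` is the part of the exterior `D` outside an enclosing cut (`D' = D` is allowed), with the
same metric and the same tensor `K`. -/
structure IsOuter (D' D : Stmt.Exterior n) : Prop where
  sub : ∀ y, 0 ≤ D'.F y → 0 ≤ D.F y
  met : D'.g = D.g
  sff : D'.K = D.K

end Vale.Agent.P366.Kerr
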