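import Vale.Agent.P366.Kerr.DefsS
import Vale.Agent.P366.Kerr.DefsO

/-! Initial data `(g, K)` where `g` is the metric of a Kerr-Schild hypersurface and `K` differs
from its second fundamental form `K₀`: definitions, in every space dimension `n`. -/

open MeasureTheory Metric Filter Topology Set
open scoped ContDiff ENNReal

noncomputable section
namespace Vale.Agent.P366.Kerr

variable {n : ℕ}

/-- The component `α = - G(N, ξ)` of the constant vector `ξ` along the future unit normal `N` of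
the hypersurface `t = f(y)`: `ξ = α N + β`. -/
def alpha (G : Stmt.Field (n + 1)) (f : Stmt.E n → ℝ) (ξ : Fin (n + 1) → ℝ) (y : Stmt.E n) : ℝ :=
  lapse G f y * ∑ a, con f y a * ξ a

/-- The tangential part `β` of the constant vector `ξ`, as a covector: `β_i = G(ξ, ∂_i)`. -/
def beta (G : Stmt.Field (n + 1)) (f : Stmt.E n → ℝ) (ξ : Fin (n + 1) → ℝ) (i : Fin n)
    (y : Stmt.E n) : ℝ :=
  ∑ a, ∑ b, G (pt (f y) y) a b * tng f i y a * ξ b

/-- The restriction to the hypersurface `t = f(y)` of the Lie derivative of the metric `G` along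
the constant vector field `ξ`. -/
def lieG (G : Stmt.Field (n + 1)) (f : Stmt.E n → ℝ) (ξ : Fin (n + 1) → ℝ) : Stmt.Field n :=
  fun y i j => ∑ a, ∑ b,
    (∑ c, ξ c * Stmt.pd c (fun q => G q a b) (pt (f y) y)) * tng f i y a * tng f j y b

/-- The inner product of the symmetric tensors `A` and `B` with respect to `g`. -/
def inn (g A B : Stmt.Field n) (y : Stmt.E n) : ℝ :=
  ∑ i, ∑ j, ∑ k, ∑ l, Stmt.up g i k y * Stmt.up g j l y * A y i j * B y k l

/-- The difference `k = K - K₀`. -/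
def dif (D₀ D : Stmt.Exterior n) : Stmt.Field n := fun y i j => D.K y i j - D₀.K y i j

/-- The initial data `D = (g, K)` satisfy the dominant energy condition, and `l` is geodesic at the
points of the hypersurface `t = f(y)` with `V ≠ 0`: `l^b ∂_b l_a = κ l_a`. At each interior point
either the constant vector `ξ` is timelike for the Kerr-Schild metric, or the dominant energy
condition of the data holds in the form `SharpAt` and the hypersurface is spacelike or null there
for the Minkowski metric. -/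
structure MixS (l : Fin (n + 1) → Stmt.E (n + 1) → ℝ) (V : Stmt.E (n + 1) → ℝ)
    (f : Stmt.E n → ℝ) (ξ : Fin (n + 1) → ℝ) (D : Stmt.Exterior n) : Prop where
  dec : D.DEC
  geo : ∀ y, 0 ≤ D.F y → V (pt (f y) y) ≠ 0 → ∃ κ : ℝ, ∀ a,
    ∑ b, sgn b * l b (pt (f y) y) * Stmt.pd b (l a) (pt (f y) y) = κ * l a (pt (f y) y)
  mix : ∀ y, 0 < D.F y →
    V (pt (f y) y) * (∑ a, l a (pt (f y) y) * ξ a) ^ 2 < ξ 0 ^ 2 - ∑ i : Fin n, ξ i.succ ^ 2 ∨
    (SharpAt l f D y ∧ ∑ i, Stmt.pd i f y ^ 2 ≤ 1)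

/-- The data `D = (g, K)` and the data `D₀ = (g, K₀)` have the same domain and metric, and the
difference `k = K - K₀` is trace-free, satisfies `α |k|² + ⟨k, L_ξ G⟩ > 0` at the interior points
where `k` does not vanish, and `(α + β(ν)) k(ν, ν) ≤ 2 k(ν, β)` on the boundary, where `ν` is the
unit normal pointing to the interior. -/
structure IsRef (l : Fin (n + 1) → Stmt.E (n + 1) → ℝ) (V : Stmt.E (n + 1) → ℝ)
    (f : Stmt.E n → ℝ) (ξ : Fin (n + 1) → ℝ) (D₀ D : Stmt.Exterior n) : Prop where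
  dom : D₀.F = D.F
  met : D₀.g = D.g
  tr : ∀ y, 0 ≤ D.F y → Stmt.tr D.g (dif D₀ D) y = 0
  int : ∀ y, 0 < D.F y → (∀ i j, dif D₀ D y i j = 0) ∨
    0 < alpha (ksL l V) f ξ y * Stmt.normSq D.g (dif D₀ D) y +
      inn D.g (dif D₀ D) (lieG (ksL l V) f ξ) y
  bdr : ∀ y, D.F y = 0 →
    (alpha (ksL l V) f ξ y + ∑ i, beta (ksL l V) f ξ i y * Stmt.nrm D.g D.F i y) *
      (∑ i, ∑ j, dif D₀ D y i j * Stmt.nrm D.g D.F i y * Stmt.nrm D.g D.F j y) ≤
    2 * ∑ i, ∑ j, dif D₀ D y i j * Stmt.nrm D.g D.F i y *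
      ∑ k, Stmt.up D.g j k y * beta (ksL l V) f ξ k y

end Vale.Agent.P366.Kerr
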