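import Vale.Agent.P366.Kerr.DefsG

/-! Initial data `(g, K)` where `g` is the metric of a Kerr-Schild hypersurface and `K` differs
from its second fundamental form `K₀` by an arbitrary symmetric tensor `k`: the pointwise
conditions. -/

open MeasureTheory Metric Filter Topology Set
open scoped ContDiff ENNReal

noncomputable section
namespace Vale.Agent.P366.Kerr

variable {n : ℕ}

/-- The energy density `α μ + ⟨J, β⟩` of the data `D` with respect to the constant vector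
`ξ = α N + β`. -/
def enD (l : Fin (n + 1) → Stmt.E (n + 1) → ℝ) (V : Stmt.E (n + 1) → ℝ)
    (f : Stmt.E n → ℝ) (ξ : Fin (n + 1) → ℝ) (D : Stmt.Exterior n) (y : Stmt.E n) : ℝ :=
  alpha (ksL l V) f ξ y * Stmt.mu D.g D.K y +
    ∑ i, ∑ j, Stmt.up D.g i j y * (Stmt.mom D.g D.K i y * beta (ksL l V) f ξ j y)

/-- The expression `Q(k) = α (|k|² - (tr k)²) + ⟨k - (tr k) g, L_ξ G⟩` of the difference
`k = K - K₀`. -/
def quD (l : Fin (n + 1) → Stmt.E (n + 1) → ℝ) (V : Stmt.E (n + 1) → ℝ)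
    (f : Stmt.E n → ℝ) (ξ : Fin (n + 1) → ℝ) (D₀ D : Stmt.Exterior n) (y : Stmt.E n) : ℝ :=
  alpha (ksL l V) f ξ y * (Stmt.normSq D.g (dif D₀ D) y - Stmt.tr D.g (dif D₀ D) y ^ 2) +
    inn D.g (difM D₀ D) (lieG (ksL l V) f ξ) y

/-- Either the constant vector `ξ` is timelike for the Kerr-Schild metric at the point, or the
dominant energy condition of the data holds in the form `SharpAt` and the hypersurface is spacelike
or null there for the Minkowski metric. -/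
def MixAt (l : Fin (n + 1) → Stmt.E (n + 1) → ℝ) (V : Stmt.E (n + 1) → ℝ)
    (f : Stmt.E n → ℝ) (ξ : Fin (n + 1) → ℝ) (D : Stmt.Exterior n) (y : Stmt.E n) : Prop :=
  V (pt (f y) y) * (∑ a, l a (pt (f y) y) * ξ a) ^ 2 < ξ 0 ^ 2 - ∑ i : Fin n, ξ i.succ ^ 2 ∨
    (SharpAt l f D y ∧ ∑ i, Stmt.pd i f y ^ 2 ≤ 1)

/-- The data `D = (g, K)` satisfy the dominant energy condition and have the domain and the metric
of the data `D₀ = (g, K₀)`; `l` is geodesic at the points of the hypersurface `t = f(y)` with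
`V ≠ 0`. At each interior point either `Q(k) ≥ 0` and the condition `MixAt` holds, or
`α μ + ⟨J, β⟩ + Q(k) / 2 ≥ 0`. On the boundary `(α + β(ν)) (θ₊ + π_k(ν, ν)) ≤ 2 π_k(ν, β)`, where
`θ₊` is the expansion of the boundary for the data `D`, `π_k = k - (tr k) g`, and `ν` is the unit
normal pointing to the interior. -/
structure IsRefH (l : Fin (n + 1) → Stmt.E (n + 1) → ℝ) (V : Stmt.E (n + 1) → ℝ)
    (f : Stmt.E n → ℝ) (ξ : Fin (n + 1) → ℝ) (D₀ D : Stmt.Exterior n) : Prop where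
  dom : D₀.F = D.F
  met : D₀.g = D.g
  dec : D.DEC
  geo : ∀ y, 0 ≤ D.F y → V (pt (f y) y) ≠ 0 → ∃ κ : ℝ, ∀ a,
    ∑ b, sgn b * l b (pt (f y) y) * Stmt.pd b (l a) (pt (f y) y) = κ * l a (pt (f y) y)
  int : ∀ y, 0 < D.F y → (MixAt l V f ξ D y ∧ 0 ≤ quD l V f ξ D₀ D y) ∨
    0 ≤ enD l V f ξ D y + quD l V f ξ D₀ D y / 2
  bdr : ∀ y, D.F y = 0 →
    (alpha (ksL l V) f ξ y + ∑ i, beta (ksL l V) f ξ i y * Stmt.nrm D.g D.F i y) *
      (Stmt.thetaPlus D.g D.K D.F y +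
        ∑ i, ∑ j, difM D₀ D y i j * Stmt.nrm D.g D.F i y * Stmt.nrm D.g D.F j y) ≤
    2 * ∑ i, ∑ j, difM D₀ D y i j * Stmt.nrm D.g D.F i y *
      ∑ k, Stmt.up D.g j k y * beta (ksL l V) f ξ k y

/-- At each interior point either `k = 0` and the condition `MixAt` holds, or
`α μ + ⟨J, β⟩ + Q(k) / 2 > 0`. -/
def IsStrictH (l : Fin (n + 1) → Stmt.E (n + 1) → ℝ) (V : Stmt.E (n + 1) → ℝ)
    (f : Stmt.E n → ℝ) (ξ : Fin (n + 1) → ℝ) (D₀ D : Stmt.Exterior n) : Prop :=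
  ∀ y, 0 < D.F y → ((∀ i j, dif D₀ D y i j = 0) ∧ MixAt l V f ξ D y) ∨
    0 < enD l V f ξ D y + quD l V f ξ D₀ D y / 2

end Vale.Agent.P366.Kerr
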