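import Vale.Agent.P366.Kerr.DefsK

/-! Initial data `(g, K)` where `g` is the metric of a Kerr-Schild hypersurface and `K` differs
from its second fundamental form `K₀` by an arbitrary symmetric tensor: definitions, in every space
dimension `n`. -/

open MeasureTheory Metric Filter Topology Set
open scoped ContDiff ENNReal

noncomputable section
namespace Vale.Agent.P366.Kerr

variable {n : ℕ}

/-- The tensor `π_k = k - (tr k) g` of the difference `k = K - K₀`, the difference of the momentum
tensors of the data `D = (g, K)` and `D₀ = (g, K₀)`. -/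
def difM (D₀ D : Stmt.Exterior n) : Stmt.Field n := Stmt.momT D.g (dif D₀ D)

/-- The data `D = (g, K)` and the data `D₀ = (g, K₀)` have the same domain and metric, and the
difference `k = K - K₀` satisfies `α (|k|² - (tr k)²) + ⟨π_k, L_ξ G⟩ > 0` at the interior points
where `k` does not vanish, and `(α + β(ν)) π_k(ν, ν) ≤ 2 π_k(ν, β)` on the boundary, where `ν` is
the unit normal pointing to the interior. -/
structure IsRefG (l : Fin (n + 1) → Stmt.E (n + 1) → ℝ) (V : Stmt.E (n + 1) → ℝ)
    (f : Stmt.E n → ℝ) (ξ : Fin (n + 1) → ℝ) (D₀ D : Stmt.Exterior n) : Prop where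
  dom : D₀.F = D.F
  met : D₀.g = D.g
  int : ∀ y, 0 < D.F y → (∀ i j, dif D₀ D y i j = 0) ∨
    0 < alpha (ksL l V) f ξ y *
        (Stmt.normSq D.g (dif D₀ D) y - Stmt.tr D.g (dif D₀ D) y ^ 2) +
      inn D.g (difM D₀ D) (lieG (ksL l V) f ξ) y
  bdr : ∀ y, D.F y = 0 →
    (alpha (ksL l V) f ξ y + ∑ i, beta (ksL l V) f ξ i y * Stmt.nrm D.g D.F i y) *
      (∑ i, ∑ j, difM D₀ D y i j * Stmt.nrm D.g D.F i y * Stmt.nrm D.g D.F j y) ≤
    2 * ∑ i, ∑ j, difM D₀ D y i j * Stmt.nrm D.g D.F i y *
      ∑ k, Stmt.up D.g j k y * beta (ksL l V) f ξ k y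

end Vale.Agent.P366.Kerr
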