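import Vale.Agent.P366.Stmt

/-! Exterior initial data in Kerr-Schild spacetimes over a null hypersurface of Minkowski space:
definitions, in every space dimension `n`.

Points of spacetime are the points `p : E (n + 1)`: `p 0 = t` is the time, the other coordinates
are the point `y = sp p` of Euclidean space. -/

open MeasureTheory Metric Filter Topology Set
open scoped ContDiff ENNReal

noncomputable section
namespace Vale.Agent.P366.Kerr

variable {n : ℕ}

/-! ### Lorentzian metrics in coordinates -/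

/-- The components of the Ricci tensor of `g`. -/
def ric (g : Stmt.Field n) (i j : Fin n) (x : Stmt.E n) : ℝ :=
  ∑ k, (Stmt.pd k (Stmt.chr g k i j) x - Stmt.pd j (Stmt.chr g k i k) x +
    ∑ l, (Stmt.chr g k k l x * Stmt.chr g l i j x - Stmt.chr g k j l x * Stmt.chr g l i k x))

/-- The components of the Einstein tensor of `g`. -/
def ein (g : Stmt.Field n) (i j : Fin n) (x : Stmt.E n) : ℝ :=
  ric g i j x - Stmt.scal g x * g x i j / 2

/-- The vector `X` at `x` is timelike for `g` and future directed: `w` increases along `X`. -/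
def FutureTimelike (g : Stmt.Field n) (w : Stmt.E n → ℝ) (x : Stmt.E n) (X : Fin n → ℝ) : Prop :=
  (∑ i, ∑ j, g x i j * X i * X j < 0) ∧ 0 < ∑ i, Stmt.pd i w x * X i

/-- The dominant energy condition at the point `x`: the Einstein tensor is nonnegative on each pair
of future directed timelike vectors. -/
def DECat (g : Stmt.Field n) (w : Stmt.E n → ℝ) (x : Stmt.E n) : Prop :=
  ∀ X Y : Fin n → ℝ, FutureTimelike g w x X → FutureTimelike g w x Y →
    0 ≤ ∑ i, ∑ j, ein g i j x * X i * Y j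

/-! ### The hypersurfaces `t = f(y)` of a spacetime -/

/-- The space coordinates of a point of spacetime. -/
def sp (p : Stmt.E (n + 1)) : Stmt.E n := WithLp.toLp 2 fun i => p i.succ

/-- The point of spacetime with the time `t` over the point `y` of space. -/
def pt (t : ℝ) (y : Stmt.E n) : Stmt.E (n + 1) := WithLp.toLp 2 (Fin.cons t fun i => y i)

/-- The coordinate vector field `∂_i` of the hypersurface `t = f(y)`. -/
def tng (f : Stmt.E n → ℝ) (i : Fin n) (y : Stmt.E n) : Fin (n + 1) → ℝ :=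
  Fin.cons (Stmt.pd i f y) (Pi.single i 1)

/-- The covector `dt - df`. -/
def con (f : Stmt.E n → ℝ) (y : Stmt.E n) : Fin (n + 1) → ℝ :=
  Fin.cons 1 fun i => - Stmt.pd i f y

/-- The metric induced by `G` on the hypersurface `t = f(y)`. -/
def indG (G : Stmt.Field (n + 1)) (f : Stmt.E n → ℝ) : Stmt.Field n := fun y i j =>
  ∑ a, ∑ b, G (pt (f y) y) a b * tng f i y a * tng f j y b

/-- The lapse: the future unit normal is `- lapse * (dt - df)` as a covector. -/
def lapse (G : Stmt.Field (n + 1)) (f : Stmt.E n → ℝ) (y : Stmt.E n) : ℝ :=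
  1 / √(-∑ a, ∑ b, Stmt.up G a b (pt (f y) y) * con f y a * con f y b)

/-- The second fundamental form `K(X, Y) = - ⟨N, ∇_X Y⟩` of the hypersurface `t = f(y)` of the
spacetime with the metric `G`, where `N` is the future unit normal. -/
def indK (G : Stmt.Field (n + 1)) (f : Stmt.E n → ℝ) : Stmt.Field n := fun y i j =>
  lapse G f y * (Stmt.pd i (Stmt.pd j f) y +
    ∑ a, con f y a * ∑ b, ∑ c, Stmt.chr G a b c (pt (f y) y) * tng f i y b * tng f j y c)

/-! ### Null hypersurfaces of Minkowski space and Kerr-Schild metrics -/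

/-- The map `x ↦ ∇H(x) + x`. -/
def Psi (H : Stmt.E n → ℝ) (x : Stmt.E n) : Stmt.E n :=
  WithLp.toLp 2 fun i => Stmt.pd i H x + x i

/-- A closed spacelike surface `S` of codimension two in Minkowski space with a regular past
outgoing null hypersurface: `S` consists of the points `t = - U(ν), y = ∇H(ν) + U(ν) ν`, `|ν| = 1`,
and the null hypersurface of the rays `t = - s, y = ∇H(ν) + s ν`, `U(ν) ≤ s`. The functions `H`
and `U` on the unit sphere are extended to homogeneous functions of degree one and zero; `reg`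
says that the induced metric of `S` and of the sections of the null hypersurface is nondegenerate
(it is the square of `D²H + s` on the space orthogonal to `ν`), `inj` that the rays project
injectively to Euclidean space: with `x = s ν` this is the map `Psi H`. -/
structure NullCone (n : ℕ) where
  H : Stmt.E n → ℝ
  U : Stmt.E n → ℝ
  smooth : ∀ x, x ≠ 0 → ContDiffAt ℝ ∞ H x ∧ ContDiffAt ℝ ∞ U x
  hom : ∀ x, x ≠ 0 → ∀ r : ℝ, 0 < r → H (r • x) = r * H x ∧ U (r • x) = U x
  pos : ∀ x, x ≠ 0 → 0 < U x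
  reg : ∀ x : Stmt.E n, ‖x‖ = 1 → ∀ v : Fin n → ℝ, ∑ i, x i * v i = 0 → v ≠ 0 →
    0 < ∑ i, ∑ j, Stmt.pd i (Stmt.pd j H) x * v i * v j + U x * ∑ i, v i ^ 2
  inj : Set.InjOn (Psi H) {x | x ≠ 0 ∧ U x ≤ ‖x‖}

/-- The function `w = t + λ(y)`. -/
def nul (lam : Stmt.E n → ℝ) (p : Stmt.E (n + 1)) : ℝ := p 0 + lam (sp p)

/-- The Kerr-Schild metric `- dt^2 + |dy|^2 + V(t, y) (dt + dλ)^2`. -/
def ksG (lam : Stmt.E n → ℝ) (V : Stmt.E (n + 1) → ℝ) : Stmt.Field (n + 1) := fun p i j =>
  (if i = j then (if i = 0 then -1 else 1) else 0) +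
    V p * Stmt.pd i (nul lam) p * Stmt.pd j (nul lam) p

/-- The exterior initial data `D` are the part outside the surface
`t = - U(ν), y = ∇H(ν) + U(ν) ν` of the hypersurface `t = f(y)` of the spacetime with the
Kerr-Schild metric `ksG lam V`. On the exterior `λ` is the function with `λ = s` at
`y = ∇H(ν) + s ν`. The function `f` vanishes for large `|y|`. -/
structure IsSlice (C : NullCone n) (lam : Stmt.E n → ℝ) (V : Stmt.E (n + 1) → ℝ)
    (f : Stmt.E n → ℝ) (D : Stmt.Exterior n) : Prop where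
  dom : ∀ y, 0 ≤ D.F y ↔ ∃ x, x ≠ 0 ∧ C.U x ≤ ‖x‖ ∧ Psi C.H x = y
  bdr : ∀ x, x ≠ 0 → ‖x‖ = C.U x → D.F (Psi C.H x) = 0 ∧ f (Psi C.H x) = - C.U x
  smL : ∀ y, 0 ≤ D.F y → ContDiffAt ℝ ∞ lam y
  eqL : ∀ x, x ≠ 0 → C.U x ≤ ‖x‖ → lam (Psi C.H x) = ‖x‖
  smf : ∀ y, 0 ≤ D.F y → ContDiffAt ℝ ∞ f y
  cpt : ∃ R, ∀ y, R < Stmt.len y → f y = 0
  met : ∀ y, 0 ≤ D.F y → ∀ i j, D.g y i j = indG (ksG lam V) f y i j
  sff : ∀ y, 0 ≤ D.F y → ∀ i j, D.K y i j = indK (ksG lam V) f y i j

/-- The region of spacetime between the null hypersurface `t + λ = 0` and the hypersurface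
`t = f(y)`, both included. -/
def Region (lam f : Stmt.E n → ℝ) (D : Stmt.Exterior n) : Set (Stmt.E (n + 1)) :=
  {p | 0 ≤ D.F (sp p) ∧ 0 ≤ nul lam p ∧ p 0 ≤ f (sp p)}

end Vale.Agent.P366.Kerr
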