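import Vale.Agent.P366.Kerr.DefsE

/-! Hypersurfaces of Kerr-Schild spacetimes whose initial data satisfy the dominant energy
condition, sharpened at some points: definitions, in every space dimension `n`. -/

open MeasureTheory Metric Filter Topology Set
open scoped ContDiff ENNReal

noncomputable section
namespace Vale.Agent.P366.Kerr

variable {n : ℕ}

/-- The restriction of the covector field `l` to the hypersurface `t = f(y)`. -/
def resL (l : Fin (n + 1) → Stmt.E (n + 1) → ℝ) (f : Stmt.E n → ℝ) (i : Fin n) (y : Stmt.E n) : ℝ :=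
  ∑ a, l a (pt (f y) y) * tng f i y a

/-- The sharpened dominant energy condition at the point `y`: `(μ - ⟨J, s⟩ / |s|)² + |J|² ≤ μ²`,
where the covector `s` is the restriction of `l` to the hypersurface. -/
def SharpAt (l : Fin (n + 1) → Stmt.E (n + 1) → ℝ) (f : Stmt.E n → ℝ) (D : Stmt.Exterior n)
    (y : Stmt.E n) : Prop :=
  (Stmt.mu D.g D.K y - (∑ i, ∑ j, Stmt.up D.g i j y * Stmt.mom D.g D.K i y * resL l f j y) /
    Stmt.covNorm D.g (resL l f) y) ^ 2 + Stmt.covNorm D.g (Stmt.mom D.g D.K) y ^ 2 ≤
    Stmt.mu D.g D.K y ^ 2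

end Vale.Agent.P366.Kerr
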