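import Vale.Agent.P366.Kerr.Defs

/-! Kerr-Schild spacetimes over Minkowski space with an arbitrary null covector field `l`:
definitions, in every space dimension `n`. -/

open MeasureTheory Metric Filter Topology Set
open scoped ContDiff ENNReal

noncomputable section
namespace Vale.Agent.P366.Kerr

variable {n : ℕ}

/-- The signs of the Minkowski metric: `-1` for the time, `1` for the space coordinates. -/
def sgn {n : ℕ} (a : Fin (n + 1)) : ℝ := if a = 0 then -1 else 1

/-- The Kerr-Schild metric `- dt^2 + |dy|^2 + V l ⊗ l` with the covector field `l`. -/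
def ksL (l : Fin (n + 1) → Stmt.E (n + 1) → ℝ) (V : Stmt.E (n + 1) → ℝ) : Stmt.Field (n + 1) :=
  fun p a b => (if a = b then sgn a else 0) + V p * l a p * l b p

/-- Near the point `p` the function `V` and the covector field `l` are smooth, and `l` is null and
future directed (positive on future directed vectors) for the Minkowski metric. -/
structure IsKS (l : Fin (n + 1) → Stmt.E (n + 1) → ℝ) (V : Stmt.E (n + 1) → ℝ)
    (p : Stmt.E (n + 1)) : Prop where
  smV : ContDiffAt ℝ ∞ V p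
  sml : ∀ a, ContDiffAt ℝ ∞ (l a) p
  null : ∀ᶠ q in 𝓝 p, ∑ a, sgn a * l a q ^ 2 = 0
  fut : 0 < l 0 p

/-- The vector `X` at `p` is timelike for `g` and future directed: `l` is positive on `X`. -/
def FutTimelike (g : Stmt.Field n) (l : Fin n → Stmt.E n → ℝ) (p : Stmt.E n) (X : Fin n → ℝ) :
    Prop :=
  (∑ a, ∑ b, g p a b * X a * X b < 0) ∧ 0 < ∑ a, l a p * X a

/-- The dominant energy condition at the point `p`: the Einstein tensor is nonnegative on each pair
of future directed timelike vectors. -/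
def DECatL (g : Stmt.Field n) (l : Fin n → Stmt.E n → ℝ) (p : Stmt.E n) : Prop :=
  ∀ X Y : Fin n → ℝ, FutTimelike g l p X → FutTimelike g l p Y →
    0 ≤ ∑ a, ∑ b, ein g a b p * X a * Y b

/-- The hypersurface `t = f(y)` over the exterior domain of `D` lies in the Kerr-Schild spacetime
and has the boundary surface `t = - U(ν), y = ∇H(ν) + U(ν) ν`, `|ν| = 1`. -/
structure IsGraph (C : NullCone n) (l : Fin (n + 1) → Stmt.E (n + 1) → ℝ)
    (V : Stmt.E (n + 1) → ℝ) (f : Stmt.E n → ℝ) (D : Stmt.Exterior n) : Prop where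
  smf : ∀ y, 0 ≤ D.F y → ContDiffAt ℝ ∞ f y
  bdr : ∀ x, x ≠ 0 → ‖x‖ = C.U x → f (Psi C.H x) = - C.U x
  ks : ∀ y, 0 ≤ D.F y → IsKS l V (pt (f y) y)

/-- The exterior initial data `D` are the part outside the surface `S`: `t = - U(ν)`,
`y = ∇H(ν) + U(ν) ν` of the hypersurface `t = f(y)` of the spacetime with the Kerr-Schild metric
`ksL l V`; `l` is normal to `S` (on `S` it is a multiple of the covector `(1, ν)`), and the
hypersurface is asymptotic to a hyperplane `t = const`. -/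
structure IsSliceL (C : NullCone n) (l : Fin (n + 1) → Stmt.E (n + 1) → ℝ)
    (V : Stmt.E (n + 1) → ℝ) (f : Stmt.E n → ℝ) (D : Stmt.Exterior n) : Prop
    extends IsGraph C l V f D where
  dom : ∀ y, 0 ≤ D.F y ↔ ∃ x, x ≠ 0 ∧ C.U x ≤ ‖x‖ ∧ Psi C.H x = y
  bdF : ∀ x, x ≠ 0 → ‖x‖ = C.U x → D.F (Psi C.H x) = 0
  nor : ∀ x, x ≠ 0 → ‖x‖ = C.U x → ∀ i : Fin n,
    l i.succ (pt (- C.U x) (Psi C.H x)) = l 0 (pt (- C.U x) (Psi C.H x)) * (x i / ‖x‖)
  asy : ∃ q : ℝ, (n : ℝ) / 2 - 1 < q ∧ ∀ i j,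
    Stmt.BigO q (Stmt.pd i f) ∧ Stmt.BigO (q + 1) (Stmt.pd i (Stmt.pd j f))
  met : ∀ y, 0 ≤ D.F y → ∀ i j, D.g y i j = indG (ksL l V) f y i j
  sff : ∀ y, 0 ≤ D.F y → ∀ i j, D.K y i j = indK (ksL l V) f y i j

/-- The dominant energy condition holds at the points of the hypersurface `t = f₁(y)`, which has
the same boundary surface as `t = f(y)`, coincides with it for large `|y|`, and is spacelike or
null for the Minkowski metric (`f₁ = f` is allowed). At its points with `V < 0`, `l` is geodesic: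
`l^b ∂_b l_a = κ l_a` (nothing is assumed if `V ≥ 0`). -/
structure HasDEC (C : NullCone n) (l : Fin (n + 1) → Stmt.E (n + 1) → ℝ)
    (V : Stmt.E (n + 1) → ℝ) (f f₁ : Stmt.E n → ℝ) (D : Stmt.Exterior n) : Prop
    extends IsGraph C l V f₁ D where
  far : ∃ R, ∀ y, R < Stmt.len y → f₁ y = f y
  len : ∀ y, 0 ≤ D.F y → ∑ i, Stmt.pd i f₁ y ^ 2 ≤ 1
  dec : ∀ y, 0 ≤ D.F y → DECatL (ksL l V) l (pt (f₁ y) y)
  geo : ∀ y, 0 ≤ D.F y → V (pt (f₁ y) y) < 0 → ∃ κ : ℝ, ∀ a,
    ∑ b, sgn b * l b (pt (f₁ y) y) * Stmt.pd b (l a) (pt (f₁ y) y) = κ * l a (pt (f₁ y) y)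

end Vale.Agent.P366.Kerr
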