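import Vale.Agent.P366.Kerr.DefsL

/-! The equality case for the Kerr-Schild spacetimes with the covector field `l = d(t + λ(y))`:
definitions, in every space dimension `n`. -/

open MeasureTheory Metric Filter Topology Set
open scoped ContDiff ENNReal

noncomputable section
namespace Vale.Agent.P366.Kerr

variable {n : ℕ}

/-- Near the hypersurface `t = f(y)` over the exterior domain of `D` the covector field `l` is the
differential of `t + λ(y)`, where `λ = s` at `y = ∇H(ν) + s ν`: its null hypersurfaces are the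
translates in time of the null hypersurface of the rays `t = - s`, `y = ∇H(ν) + s ν`. -/
structure IsGradient (C : NullCone n) (lam : Stmt.E n → ℝ)
    (l : Fin (n + 1) → Stmt.E (n + 1) → ℝ) (f : Stmt.E n → ℝ) (D : Stmt.Exterior n) : Prop where
  smL : ∀ y, 0 ≤ D.F y → ContDiffAt ℝ ∞ lam y
  eqL : ∀ x, x ≠ 0 → C.U x ≤ ‖x‖ → lam (Psi C.H x) = ‖x‖
  grad : ∀ y, 0 ≤ D.F y → ∀ᶠ p in 𝓝 (pt (f y) y), ∀ a, l a p = Stmt.pd a (nul lam) p

/-- The Schwarzschild-Tangherlini metric in the Kerr-Schild coordinates centered at `c`: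
`- dt^2 + |dy|^2 + (r₀ / r) ^ (n - 2) (dt + dr)^2`, `r = |y - c|`; the horizon is `r = r₀`. -/
def schw (c : Stmt.E n) (r₀ : ℝ) : Stmt.Field (n + 1) :=
  ksG (fun y => Stmt.len (y - c)) fun p => (r₀ / Stmt.len (sp p - c)) ^ (n - 2)

/-- The exterior initial data `D` are the part outside the horizon of the hypersurface `t = f(y)`
of the Schwarzschild-Tangherlini spacetime. -/
structure IsSchwSlice (c : Stmt.E n) (r₀ : ℝ) (f : Stmt.E n → ℝ) (D : Stmt.Exterior n) :
    Prop where
  pos : 0 < r₀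
  dom : ∀ y, 0 ≤ D.F y ↔ r₀ ≤ Stmt.len (y - c)
  met : ∀ y, 0 ≤ D.F y → ∀ i j, D.g y i j = indG (schw c r₀) f y i j
  sff : ∀ y, 0 ≤ D.F y → ∀ i j, D.K y i j = indK (schw c r₀) f y i j

end Vale.Agent.P366.Kerr
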