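import Vale.Agent.P366.Stmt

/-! Exteriors which coincide on an enclosing cut and at infinity: definition. -/

open MeasureTheory Metric Filter Topology Set
open scoped ContDiff ENNReal

noncomputable section
namespace Vale.Agent.P366.Kerr

variable {n : ℕ}

/-- The boundary of `D'` is an enclosing cut of the exterior `D` and has the same metric in `D`,
and `D` and `D'` coincide for large `|y|` (`D' = D` is allowed). -/
structure IsCut (D' D : Stmt.Exterior n) : Prop where
  sub : ∀ y, 0 ≤ D'.F y → 0 ≤ D.F y
  met : ∀ y, D'.F y = 0 → ∀ i j, D'.g y i j = D.g y i j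
  far : ∃ R, ∀ y, R < Stmt.len y → ∀ i j, D'.g y i j = D.g y i j ∧ D'.K y i j = D.K y i j

end Vale.Agent.P366.Kerr
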