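import Vale.Agent.P366.Kerr.Defs
import Vale.Agent.P366.H222.X7b

/-! The case `n = 3`: from the definitions of `Kerr.Defs` to those of the proofs. -/

open MeasureTheory Metric Filter Topology Set
open scoped ContDiff ENNReal

noncomputable section
namespace Vale.Agent.P366.Kerr

open Vale.Agent.P366.H353 (Dat Sm Hom)

theorem spd2_eq {H : Stmt.E 3 → ℝ} (hH : Sm H) {x : Stmt.E 3} (hx : x ≠ 0) (i j : Fin 3) :
    Stmt.pd i (Stmt.pd j H) x = H353.hs H i j x := by
  have he : Stmt.pd j H =ᶠ[𝓝 x] Vale.Agent.P366.pd j H := by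
    filter_upwards [H353.nhds_ne hx] with z hz
    exact Vale.Agent.P366.Bridge.pd_eq (hH.diff hz) j
  have h1 : Stmt.pd i (Stmt.pd j H) x = Stmt.pd i (Vale.Agent.P366.pd j H) x := by
    show lineDeriv ℝ _ x _ = lineDeriv ℝ _ x _
    exact he.lineDeriv_eq
  rw [h1, Vale.Agent.P366.Bridge.pd_eq ((hH.pd j).diff hx) i]
  rfl

/-- the data of the proofs -/
def NullCone.toCone (C : NullCone 3) : KS.Cone where
  H := C.H
  U := C.U
  smH := fun x hx => (C.smooth x hx).1
  smU := fun x hx => (C.smooth x hx).2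
  homH := fun x hx r hr => by rw [(C.hom x hx r hr).1, zpow_one]
  homU := fun x hx r hr => by rw [(C.hom x hx r hr).2, zpow_zero, one_mul]
  pos := fun x hx v hv h0 => by
    have h := C.reg x hx v hv h0
    have hsm : Sm C.H := fun x hx => (C.smooth x hx).1
    have hx0 := H353.ne_zero_of_one hx
    unfold H353.qf
    simpa only [spd2_eq hsm hx0] using h
  posU := C.pos
  inj := C.inj

theorem IsSlice.toKS {C : NullCone 3} {lam : Stmt.E 3 → ℝ} {V : Stmt.E 4 → ℝ} {f : Stmt.E 3 → ℝ}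
    {D : Stmt.Exterior 3} (h : IsSlice C lam V f D) : KS.IsSlice C.toCone lam V f D where
  dom := h.dom
  bdr := h.bdr
  smL := h.smL
  eqL := h.eqL
  smf := h.smf
  cpt := h.cpt
  met := h.met
  sff := h.sff

theorem region_eq (lam f : Stmt.E 3 → ℝ) (D : Stmt.Exterior 3) :
    Region lam f D = KS.Region lam f D := rfl

theorem decat_iff (lam : Stmt.E 3 → ℝ) (V : Stmt.E 4 → ℝ) (p : Stmt.E 4) :
    DECat (ksG lam V) (nul lam) p ↔ KS.DECat (KS.ksG lam V) (KS.nul lam) p := Iff.rfl

end Vale.Agent.P366.Kerr
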